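import Vale.Agent.P016.Fin
import Vale.Agent.P016.Pit
import Vale.Agent.P016.MobF
import Vale.Agent.P005.MainA
import Vale.Agent.P005.TyII
import Vale.Agent.P026.Main

theorem Vale.Agent.Results.P016.Artin.result (a : ℤ) (h1 : a ≠ -1) (ha : ¬ IsSquare a) :
    {p : ℕ | p.Prime ∧ ¬ (p : ℤ) ∣ a ∧ orderOf (a : ZMod p) = p - 1}.Infinite ∧
      ∃ c : ℝ, 0 < c ∧ ∀ᶠ x : ℕ in Filter.atTop, c * x / Real.log x ≤
        ({p : ℕ | p ≤ x ∧ p.Prime ∧ ¬ (p : ℤ) ∣ a ∧ orderOf (a : ZMod p) = p - 1}.ncard : ℝ) :=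
  Vale.Agent.P016.artin_of Vale.Agent.P026.qgrh
    (Vale.Agent.P005.mainG Vale.Agent.P026.qgrh (s := 1000) (by norm_num)
      (Vale.Agent.P005.typeII Vale.Agent.P026.qgrh le_rfl))
    (Vale.Agent.P016.pit Vale.Agent.P016.mob) a h1 ha
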